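import Vale.Agent.P251.S.TensorShift
import Vale.Agent.P251.H.Dist

/-!
# P236, block TRANS: the Adams filtration in a tensor triangulated category

* `IsHF p η` : `η : 𝟙 ⟶ H` is the unit of an Eilenberg-Mac Lane object of `ℤ / p`;
* `Null η f` : `f : A ⟶ B` is killed by `B ⟶ H ⊗ B`;
* `AF η s f` : `f` is a composite of `s` such maps; this is a two sided tensor ideal;
* `AF.lift_tower`, `AF.of_tower` : comparison with Adams towers;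
* `af_three_iff` : comparison with `J ⊗ J ⊗ J ⟶ 𝟙`.
-/

open CategoryTheory MonoidalCategory Limits Pretriangulated
open Vale.Agent.P251.T Vale.Agent.P251.H

universe v u

set_option linter.unusedSectionVars false

namespace Vale.Agent.P236Z.Tr

variable {T : Type u} [Category.{v} T] [Preadditive T] [MonoidalCategory T]

/-- `η : 𝟙 ⟶ H` is the unit of an Eilenberg-Mac Lane object of `ℤ / p`. -/
structure IsHF [HasShift T ℤ] (p : ℕ) {H : T} (η : 𝟙_ T ⟶ H) : Prop where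
  conc : ∀ k : ℤ, k ≠ 0 → ∀ g : (𝟙_ T)⟦k⟧ ⟶ H, g = 0
  gen : ∀ g : 𝟙_ T ⟶ H, ∃ m : ℤ, g = m • η
  ord : ∀ m : ℤ, m • η = 0 ↔ (p : ℤ) ∣ m

variable {H : T}

/-- the Hurewicz map `B ⟶ H ⊗ B` -/
def hur (η : 𝟙_ T ⟶ H) (B : T) : B ⟶ H ⊗ B := (λ_ B).inv ≫ η ▷ B

/-- `f` is killed by the Hurewicz map of its target -/
def Null (η : 𝟙_ T ⟶ H) {A B : T} (f : A ⟶ B) : Prop := f ≫ hur η B = 0

/-- `f` is a composite of `s` maps which are killed by the Hurewicz map -/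
def AF (η : 𝟙_ T ⟶ H) : ℕ → ∀ {A B : T}, (A ⟶ B) → Prop
  | 0, _, _, _ => True
  | s + 1, A, B, f => ∃ (C : T) (g : A ⟶ C) (h : C ⟶ B), f = g ≫ h ∧ AF η s g ∧ Null η h

variable {η : 𝟙_ T ⟶ H}

@[reassoc]
lemma hur_naturality {A B : T} (f : A ⟶ B) : f ≫ hur η B = hur η A ≫ H ◁ f := by
  simp only [hur, Category.assoc]
  rw [leftUnitor_inv_naturality_assoc, whisker_exchange]

lemma hur_tensor (A B : T) : hur η (A ⊗ B) = hur η A ▷ B ≫ (α_ H A B).hom := by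
  simp only [hur, comp_whiskerRight, Category.assoc]
  rw [associator_naturality_left]
  simp

lemma hur_unit : hur η (𝟙_ T) ≫ (ρ_ H).hom = η := by
  simp only [hur, Category.assoc]
  rw [rightUnitor_naturality, ← unitors_equal, Iso.inv_hom_id_assoc]

lemma null_unit_iff {A : T} (f : A ⟶ 𝟙_ T) : Null η f ↔ f ≫ η = 0 := by
  rw [Null, ← cancel_mono (ρ_ H).hom, Category.assoc, hur_unit, zero_comp]

namespace Null

lemma pre {A B C : T} (a : A ⟶ B) {f : B ⟶ C} (h : Null η f) : Null η (a ≫ f) := by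
  rw [Null, Category.assoc, h, comp_zero]

lemma post {A B C : T} {f : A ⟶ B} (h : Null η f) (b : B ⟶ C) : Null η (f ≫ b) := by
  rw [Null, Category.assoc, hur_naturality, ← Category.assoc, h, zero_comp]

lemma whiskerRight [MonoidalPreadditive T] {A B : T} {f : A ⟶ B} (h : Null η f) (Z : T) :
    Null η (f ▷ Z) := by
  rw [Null, hur_tensor, ← Category.assoc, ← comp_whiskerRight, h,
    MonoidalPreadditive.zero_whiskerRight, zero_comp]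

lemma whiskerLeft [MonoidalPreadditive T] [SymmetricCategory T] (Z : T) {A B : T} {f : A ⟶ B}
    (h : Null η f) : Null η (Z ◁ f) := by
  have h1 : Z ◁ f = (β_ Z A).hom ≫ f ▷ Z ≫ (β_ B Z).hom := by
    rw [← BraidedCategory.braiding_naturality_right_assoc]
    simp
  rw [h1]
  exact ((h.whiskerRight Z).post _).pre _

end Null

namespace AF

lemma zero {A B : T} (f : A ⟶ B) : AF η 0 f := trivial

lemma succ {s : ℕ} {A B C : T} {g : A ⟶ C} {h : C ⟶ B} (hg : AF η s g) (hh : Null η h) :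
    AF η (s + 1) (g ≫ h) := ⟨C, g, h, rfl, hg, hh⟩

lemma pre : ∀ {s : ℕ} {A B C : T} (a : A ⟶ B) {f : B ⟶ C}, AF η s f → AF η s (a ≫ f)
  | 0, _, _, _, _, _, _ => trivial
  | _ + 1, _, _, _, a, _, ⟨_, _, _, e, hg, hh⟩ => by
    rw [e, ← Category.assoc]
    exact succ (pre a hg) hh

lemma post : ∀ {s : ℕ} {A B C : T} {f : A ⟶ B}, AF η s f → ∀ b : B ⟶ C, AF η s (f ≫ b)
  | 0, _, _, _, _, _, _ => trivial
  | _ + 1, _, _, _, _, ⟨_, _, _, e, hg, hh⟩, b => by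
    rw [e, Category.assoc]
    exact succ hg (hh.post b)

lemma of_null {A B : T} {f : A ⟶ B} (h : Null η f) : AF η 1 f :=
  ⟨A, 𝟙 A, f, (Category.id_comp f).symm, trivial, h⟩

lemma null {A B : T} {f : A ⟶ B} (h : AF η 1 f) : Null η f := by
  obtain ⟨_, g, _, rfl, -, hh⟩ := h
  exact hh.pre g

lemma comp {s : ℕ} {A B : T} {f : A ⟶ B} (hf : AF η s f) :
    ∀ {t : ℕ} {C : T} {g : B ⟶ C}, AF η t g → AF η (s + t) (f ≫ g)
  | 0, _, g, _ => hf.post g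
  | _ + 1, _, _, ⟨_, _, _, e, hg, hh⟩ => by
    rw [e, ← Category.assoc]
    exact succ (comp hf hg) hh

lemma three {A B C D : T} {a : A ⟶ B} {b : B ⟶ C} {c : C ⟶ D} (ha : Null η a) (hb : Null η b)
    (hc : Null η c) : AF η 3 (a ≫ b ≫ c) := by
  rw [← Category.assoc]
  exact succ (succ (of_null ha) hb) hc

lemma whiskerRight [MonoidalPreadditive T] (Z : T) :
    ∀ {s : ℕ} {A B : T} {f : A ⟶ B}, AF η s f → AF η s (f ▷ Z)
  | 0, _, _, _, _ => trivial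
  | _ + 1, _, _, _, ⟨_, _, _, e, hg, hh⟩ => by
    rw [e, comp_whiskerRight]
    exact succ (whiskerRight Z hg) (hh.whiskerRight Z)

lemma whiskerLeft [MonoidalPreadditive T] [SymmetricCategory T] (Z : T) :
    ∀ {s : ℕ} {A B : T} {f : A ⟶ B}, AF η s f → AF η s (Z ◁ f)
  | 0, _, _, _, _ => trivial
  | _ + 1, _, _, _, ⟨_, _, _, e, hg, hh⟩ => by
    rw [e, MonoidalCategory.whiskerLeft_comp]
    exact succ (whiskerLeft Z hg) (hh.whiskerLeft Z)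

lemma tensor [MonoidalPreadditive T] [SymmetricCategory T] {s t : ℕ} {A B A' B' : T} {f : A ⟶ B}
    {g : A' ⟶ B'} (hf : AF η s f) (hg : AF η t g) : AF η (s + t) (f ⊗ₘ g) := by
  rw [tensorHom_def]
  exact (hf.whiskerRight A').comp (hg.whiskerLeft B)

/-- The filtration is reflected by the tensor product with an invertible object. -/
lemma of_whiskerRight [MonoidalPreadditive T] {W W' : T} (e : W ⊗ W' ≅ 𝟙_ T) {s : ℕ} {A B : T}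
    {f : A ⟶ B} (h : AF η s (f ▷ W)) : AF η s f := by
  have h1 : f = ((ρ_ A).inv ≫ A ◁ e.inv ≫ (α_ A W W').inv) ≫ (f ▷ W) ▷ W' ≫
      ((α_ B W W').hom ≫ B ◁ e.hom ≫ (ρ_ B).hom) := by
    simp only [Category.assoc]
    rw [associator_naturality_left_assoc, Iso.inv_hom_id_assoc, ← whisker_exchange_assoc,
      whiskerLeft_inv_hom_assoc, rightUnitor_naturality, Iso.inv_hom_id_assoc]
  rw [h1]
  exact ((h.whiskerRight W').post _).pre _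

lemma of_whiskerLeft [MonoidalPreadditive T] [SymmetricCategory T] {W W' : T}
    (e : W ⊗ W' ≅ 𝟙_ T) {s : ℕ} {A B : T} {f : A ⟶ B} (h : AF η s (W ◁ f)) : AF η s f := by
  refine of_whiskerRight e ?_
  have h1 : f ▷ W = (β_ A W).hom ≫ W ◁ f ≫ (β_ W B).hom := by
    rw [← BraidedCategory.braiding_naturality_left_assoc]
    simp
  rw [h1]
  exact (h.post _).pre _

end AF

section Tri

variable [HasZeroObject T] [HasShift T ℤ] [∀ n : ℤ, (shiftFunctor T n).Additive]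
  [Pretriangulated T]

/-- A map of filtration `s` lifts through `s` stages of an Adams tower. -/
theorem AF.lift_tower : ∀ (s : ℕ) (X : ℕ → T) (g : ∀ i, X (i + 1) ⟶ X i)
    (_ : ∀ i, i < s → ∃ d, Dist (g i) (hur η (X i)) d) (c : ∀ i, X i ⟶ X 0)
    (_ : c 0 = 𝟙 _) (_ : ∀ i, c (i + 1) = g i ≫ c i) {A : T} (f : A ⟶ X 0),
    AF η s f → ∃ w : A ⟶ X s, w ≫ c s = f := by
  intro s X g hg c hc0 hc A f hf
  have key : ∀ (t r : ℕ), t + r = s → ∀ (B : T) (a : A ⟶ B) (b : B ⟶ X t), AF η r a →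
      ∃ w : A ⟶ X s, w ≫ c s = a ≫ b ≫ c t := by
    intro t r
    induction r generalizing t with
    | zero =>
      rintro rfl B a b -
      exact ⟨a ≫ b, Category.assoc _ _ _⟩
    | succ r ih =>
      rintro hs B _ b ⟨C, a, h, rfl, ha, hh⟩
      obtain ⟨d, D⟩ := hg t (by omega)
      obtain ⟨b', hb'⟩ := D.lift₂ (h ≫ b) (hh.post b)
      obtain ⟨w, hw⟩ := ih (t + 1) (by omega) C a b' ha
      refine ⟨w, ?_⟩
      rw [hw, hc, reassoc_of% hb', Category.assoc]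
  obtain ⟨w, hw⟩ := key 0 s (by omega) (X 0) f (𝟙 _) hf
  exact ⟨w, by rw [hw, hc0, Category.id_comp, Category.comp_id]⟩

/-- Three stages of an Adams tower. -/
theorem AF.lift_three {A X₀ X₁ X₂ X₃ : T} {g₀ : X₁ ⟶ X₀} {g₁ : X₂ ⟶ X₁} {g₂ : X₃ ⟶ X₂}
    {d₀ : H ⊗ X₀ ⟶ X₁⟦(1 : ℤ)⟧} {d₁ : H ⊗ X₁ ⟶ X₂⟦(1 : ℤ)⟧} {d₂ : H ⊗ X₂ ⟶ X₃⟦(1 : ℤ)⟧}
    (D₀ : Dist g₀ (hur η X₀) d₀) (D₁ : Dist g₁ (hur η X₁) d₁) (D₂ : Dist g₂ (hur η X₂) d₂)
    {f : A ⟶ X₀} (hf : AF η 3 f) : ∃ w : A ⟶ X₃, w ≫ g₂ ≫ g₁ ≫ g₀ = f := by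
  obtain ⟨_, _, c, rfl, ⟨_, _, b, rfl, ⟨_, e, a, rfl, -, ha⟩, hb⟩, hc⟩ := hf
  obtain ⟨c', rfl⟩ := D₀.lift₂ c hc
  obtain ⟨b', hb'⟩ := D₁.lift₂ (b ≫ c') (hb.post c')
  obtain ⟨a', ha'⟩ := D₂.lift₂ (a ≫ b') (ha.post b')
  refine ⟨e ≫ a', ?_⟩
  simp only [Category.assoc]
  rw [reassoc_of% ha', reassoc_of% hb']

/-- A map which lifts through three stages of an Adams tower has filtration three. -/
theorem AF.of_three {A X₀ X₁ X₂ X₃ : T} {g₀ : X₁ ⟶ X₀} {g₁ : X₂ ⟶ X₁} {g₂ : X₃ ⟶ X₂}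
    {d₀ : H ⊗ X₀ ⟶ X₁⟦(1 : ℤ)⟧} {d₁ : H ⊗ X₁ ⟶ X₂⟦(1 : ℤ)⟧} {d₂ : H ⊗ X₂ ⟶ X₃⟦(1 : ℤ)⟧}
    (D₀ : Dist g₀ (hur η X₀) d₀) (D₁ : Dist g₁ (hur η X₁) d₁) (D₂ : Dist g₂ (hur η X₂) d₂)
    (w : A ⟶ X₃) : AF η 3 (w ≫ g₂ ≫ g₁ ≫ g₀) :=
  (AF.three (η := η) D₂.zero₁₂ D₁.zero₁₂ D₀.zero₁₂).pre w

omit [MonoidalCategory T] in
/-- Change of the three objects of a distinguished triangle. -/
lemma dist_iso {X Y Z X' Y' Z' : T} {f : X ⟶ Y} {g : Y ⟶ Z} {h : Z ⟶ X⟦(1 : ℤ)⟧}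
    (D : Dist f g h) (a : X' ≅ X) (b : Y' ≅ Y) (c : Z' ≅ Z) {f' : X' ⟶ Y'} {g' : Y' ⟶ Z'}
    (hf : f' ≫ b.hom = a.hom ≫ f) (hg : g' ≫ c.hom = b.hom ≫ g) :
    Dist f' g' (c.hom ≫ h ≫ a.inv⟦(1 : ℤ)⟧') := by
  refine isomorphic_distinguished _ D _ (Triangle.isoMk _ _ a b c hf hg ?_)
  change (c.hom ≫ h ≫ a.inv⟦(1 : ℤ)⟧') ≫ a.hom⟦(1 : ℤ)⟧' = c.hom ≫ h
  rw [Category.assoc, Category.assoc, ← Functor.map_comp, a.inv_hom_id,
    CategoryTheory.Functor.map_id, Category.comp_id]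

variable [SymmetricCategory T] [TensorTriangulated T]

lemma dist_tensR {X Y Z : T} {f : X ⟶ Y} {g : Y ⟶ Z} {h : Z ⟶ X⟦(1 : ℤ)⟧} (D : Dist f g h)
    (B : T) : ∃ d, Dist (f ▷ B) (g ▷ B) d :=
  ⟨_, P251.S.dist_whiskerRight B D⟩

lemma dist_tensL {X Y Z : T} {f : X ⟶ Y} {g : Y ⟶ Z} {h : Z ⟶ X⟦(1 : ℤ)⟧} (D : Dist f g h)
    (B : T) : ∃ d, Dist (B ◁ f) (B ◁ g) d :=
  ⟨_, P251.S.dist_whiskerLeft B D⟩

/-- The fibre of the Hurewicz map of `B` is `J ⊗ B`. -/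
theorem dist_hur {J : T} {ι : J ⟶ 𝟙_ T} {δ : H ⟶ J⟦(1 : ℤ)⟧} (D : Dist ι η δ) (B : T) :
    ∃ d, Dist (ι ▷ B ≫ (λ_ B).hom) (hur η B) d := by
  obtain ⟨d, h⟩ := dist_tensR D B
  exact ⟨_, dist_iso h (Iso.refl _) (λ_ B).symm (Iso.refl _) (by simp) (by simp [hur])⟩

/-- Filtration three and `J ⊗ J ⊗ J ⟶ 𝟙`. -/
theorem af_three_iff {J : T} {ι : J ⟶ 𝟙_ T} {δ : H ⟶ J⟦(1 : ℤ)⟧} (D : Dist ι η δ) {A : T}
    (f : A ⟶ 𝟙_ T) : AF η 3 f ↔ ∃ w : A ⟶ J ⊗ (J ⊗ J),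
      w ≫ (ι ▷ (J ⊗ J) ≫ (λ_ (J ⊗ J)).hom) ≫ (ι ▷ J ≫ (λ_ J).hom) ≫ ι = f := by
  obtain ⟨d₁, D₁⟩ := dist_hur D J
  obtain ⟨d₂, D₂⟩ := dist_hur D (J ⊗ J)
  have D₀ : Dist ι (hur η (𝟙_ T)) ((ρ_ H).hom ≫ δ) :=
    D.of_iso₃ (ρ_ H).hom hur_unit rfl
  constructor
  · exact fun h => AF.lift_three D₀ D₁ D₂ h
  · rintro ⟨w, rfl⟩
    exact AF.of_three D₀ D₁ D₂ w

end Tri

end Vale.Agent.P236Z.Tr
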