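import Vale.Agent.P236Z.Tr.Real
import Vale.Agent.P251.X.HQ

/-!
# P236, block TRANS: the Adams filtration does not depend on the stable homotopy category

* `exists_HF` : there is an Eilenberg-Mac Lane object of `ℤ / p`;
* `trans` : if all elements of `π_n 𝟙` have filtration `≥ s` in one stable homotopy category with a
  suspension spectrum functor, then this holds in all of them.
-/

open CategoryTheory MonoidalCategory Limits Pretriangulated ZeroObject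
open Vale.Agent.P251.T Vale.Agent.P251.H Vale.Agent.P251.M Vale.Agent.P251.I
  Vale.Agent.P251.G Vale.Agent.P251.G.LC

universe v u v₀ u₀

set_option linter.unusedSectionVars false

namespace Vale.Agent.P236Z.Tr

section One

variable {T : Type u} [Category.{v} T] [Preadditive T] [HasZeroObject T]
    [HasShift T ℤ] [∀ n : ℤ, (shiftFunctor T n).Additive] [Pretriangulated T]
    [MonoidalCategory T] [SymmetricCategory T] [TensorTriangulated T]

lemma af_of_spheres {H : T} {η : 𝟙_ T ⟶ H} {s : ℕ} {n : ℤ}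
    (h : ∀ θ : (𝟙_ T)⟦n⟧ ⟶ 𝟙_ T, AF η s θ) {P Q : T} {K : ℤ} (eP : P ≅ (𝟙_ T)⟦n + K⟧)
    (eQ : Q ≅ (𝟙_ T)⟦K⟧) (f : P ⟶ Q) : AF η s f := by
  refine AF.of_whiskerRight (invOf (Iso.refl ((𝟙_ T)⟦-K⟧))) ?_
  let a : P ⊗ (𝟙_ T)⟦-K⟧ ≅ (𝟙_ T)⟦n⟧ := tenOf P (Iso.refl _) ≪≫
    (shiftFunctor T (-K)).mapIso eP ≪≫
      ((shiftFunctorAdd' T (n + K) (-K) n (by ring)).app _).symm
  have h1 : f ▷ (𝟙_ T)⟦-K⟧ =
      a.hom ≫ (a.inv ≫ f ▷ (𝟙_ T)⟦-K⟧ ≫ (invOf eQ).hom) ≫ (invOf eQ).inv := by simp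
  rw [h1]
  exact ((h _).post _).pre _

variable [IsTriangulated T] [MonoidalClosed T] [HasCoproducts.{0} T] [HasProducts.{0} T]
  [StableCat T] [LocallySmall.{0} T]

/-- There is an Eilenberg-Mac Lane object of `ℤ / p`. -/
theorem exists_HF (F : SpaceFunctor T) (p : ℕ) (hp : p ≠ 0) :
    ∃ (H : T) (η : 𝟙_ T ⟶ H), IsHF p η := by
  obtain ⟨Z, e, ⟨J, a, b, D, hJ⟩, hpos⟩ := P251.X.exists_HZ (T := T)
  have hJ' : Conn 2 J := hJ.conn (unit_conn F) (fun Y k f => StableCat.compact k Y f)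
  have hconc : ∀ k : ℤ, k ≠ 0 → ∀ g : (𝟙_ T)⟦k⟧ ⟶ Z, g = 0 := by
    intro k hk g
    rcases lt_or_gt_of_ne hk with h | h
    · exact conn_ring F D hJ' k h g
    · exact hpos k (by omega) g
  have hint : ∀ f : 𝟙_ T ⟶ Z, ∃ m : ℤ, f = m • e := exists_int_ring F D hJ'
  have hinj : ∀ m : ℤ, m • e = 0 → m = 0 := eq_zero_of_zsmul_unit F D hJ'
  obtain ⟨H, r, d, DH⟩ := exists_cone ((p : ℤ) • 𝟙 Z)
  have hr : (p : ℤ) • r = 0 := by
    have h := DH.zero₁₂
    rwa [Preadditive.zsmul_comp, Category.id_comp] at h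
  let z : (𝟙_ T)⟦(0 : ℤ)⟧ ≅ 𝟙_ T := (shiftFunctorZero T ℤ).app (𝟙_ T)
  refine ⟨H, e ≫ r, ?_, ?_, ?_⟩
  · intro k hk g
    have h1 : g ≫ d = 0 := by
      by_cases hk1 : k = 1
      · subst hk1
        obtain ⟨x, hx⟩ := (shiftFunctor T (1 : ℤ)).map_surjective (g ≫ d)
        obtain ⟨m, rfl⟩ := hint x
        have h2 : (m • e) ≫ ((p : ℤ) • 𝟙 Z) = 0 := by
          apply (shiftFunctor T (1 : ℤ)).map_injective
          rw [Functor.map_comp, hx, Category.assoc, DH.zero₃₁, comp_zero, Functor.map_zero]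
        rw [Preadditive.comp_zsmul, Category.comp_id, smul_smul] at h2
        have h3 : m = 0 := (mul_eq_zero.1 (hinj _ h2)).resolve_left (by exact_mod_cast hp)
        rw [← hx, h3, zero_smul, Functor.map_zero]
      · exact eq_zero_of_shift (k - 1) 1 k (by ring) (hconc _ (by omega)) _
    obtain ⟨x, hx⟩ := DH.lift₃ g h1
    rw [← hx, hconc k hk x, zero_comp]
  · intro g
    have h1 : g ≫ d = 0 := by
      rw [← cancel_epi z.hom, comp_zero]
      exact eq_zero_of_shift (-1) 1 0 (by ring) (hconc _ (by norm_num)) _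
    obtain ⟨x, hx⟩ := DH.lift₃ g h1
    obtain ⟨m, rfl⟩ := hint x
    exact ⟨m, by rw [← hx, Preadditive.zsmul_comp]⟩
  · intro m
    constructor
    · intro h
      obtain ⟨x, hx⟩ := DH.lift₂ (m • e) (by rw [Preadditive.zsmul_comp, h])
      obtain ⟨m', rfl⟩ := hint x
      rw [Preadditive.comp_zsmul, Category.comp_id, smul_smul, ← sub_eq_zero, ← sub_smul] at hx
      exact ⟨m', by have := hinj _ hx; linarith⟩
    · rintro ⟨m', rfl⟩
      rw [mul_comm, mul_smul, ← Preadditive.comp_zsmul, hr, comp_zero, smul_zero]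

end One

variable {T₀ : Type u₀} [Category.{v₀} T₀] [Preadditive T₀] [HasZeroObject T₀]
    [HasShift T₀ ℤ] [∀ n : ℤ, (shiftFunctor T₀ n).Additive] [Pretriangulated T₀]
    [IsTriangulated T₀] [MonoidalCategory T₀] [SymmetricCategory T₀] [TensorTriangulated T₀]
    [MonoidalClosed T₀] [HasCoproducts.{0} T₀] [HasProducts.{0} T₀] [StableCat T₀]
    [LocallySmall.{0} T₀]
    {T : Type u} [Category.{v} T] [Preadditive T] [HasZeroObject T]
    [HasShift T ℤ] [∀ n : ℤ, (shiftFunctor T n).Additive] [Pretriangulated T]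
    [MonoidalCategory T] [SymmetricCategory T] [TensorTriangulated T]

/-- The Adams filtration of the stable stems does not depend on the model. -/
theorem trans (F₀ : SpaceFunctor T₀) (F : SpaceFunctor T) {p : ℕ} {H₀ : T₀} {η₀ : 𝟙_ T₀ ⟶ H₀}
    (hH₀ : IsHF p η₀) {H : T} {η : 𝟙_ T ⟶ H} (hH : IsHF p η) (s : ℕ) (n : ℤ)
    (h : ∀ θ₀ : (𝟙_ T₀)⟦n⟧ ⟶ 𝟙_ T₀, AF η₀ s θ₀) (θ : (𝟙_ T)⟦n⟧ ⟶ 𝟙_ T) : AF η s θ := by
  obtain ⟨a, b, hb⟩ : ∃ a b : ℕ, n + (a : ℤ) = b :=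
    ⟨n.natAbs, (n + (n.natAbs : ℤ)).toNat, by omega⟩
  let c : (𝟙_ T)⟦n⟧ ⊗ F.S.obj (SphF a) ≅ F.S.obj (SphF b) := tenOf _ (sphIso F a) ≪≫
    ((shiftFunctorAdd' T n _ _ hb).app _).symm ≪≫ (sphIso F b).symm
  obtain ⟨M, t, ht⟩ := F.full (c.inv ≫ sc θ (F.S.obj (SphF a)))
  let eP : F₀.S.obj (SphF b ⊗ SphF M) ≅ (𝟙_ T₀)⟦n + ((a : ℤ) + M)⟧ := sphShift F₀ _ M ≪≫
    (shiftFunctor T₀ (M : ℤ)).mapIso (sphIso F₀ b) ≪≫
      ((shiftFunctorAdd' T₀ (b : ℤ) _ _ (by omega)).app _).symm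
  let eQ : F₀.S.obj (SphF a ⊗ SphF M) ≅ (𝟙_ T₀)⟦(a : ℤ) + M⟧ := sphShift F₀ _ M ≪≫
    (shiftFunctor T₀ (M : ℤ)).mapIso (sphIso F₀ a) ≪≫ ((shiftFunctorAdd T₀ _ _).app _).symm
  obtain ⟨X, j, ⟨U, V, u, K, ⟨eV⟩, hu, hj⟩, hf⟩ := exists_fin (η := η₀) (Rz F₀ F η)
    (rz_zero F₀ F) (fun s X X' j j' hX hj hj' => by
      rw [add_comm]
      exact rz_mul F₀ F (rz_one F₀ F hH₀ hH hX j hj) hj') _ s _ (eP.inv ≫ F₀.S.map t)
    (af_of_spheres h (Iso.refl _) eQ _)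
  have h1 : FT (F₀.S.map t) (sc j _) := (FT.iso eP.symm _).trans hf
  have h2 : FT (F₀.S.map (V ◁ t)) (F₀.S.map (u ▷ (SphF a ⊗ SphF M))) := by
    rw [S_whiskerLeft, S_whiskerRight]
    refine FT.pre _ (FT.trans (FT.post ?_ _) (FT.iso (mu F₀ _ _).symm _))
    refine (h1.whiskerLeft _).trans ?_
    rw [sc_comm, sc_tensor]
    exact ((hj.whiskerRight _).pre _).pre _
  have h3 : AF η s (F.S.map (V ◁ t)) := by
    refine (ft_transfer F₀ F h2).af ?_
    rw [S_whiskerRight]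
    exact ((hu.whiskerRight _).post _).pre _
  have h4 : AF η s (F.S.map t) := by
    refine AF.of_whiskerLeft (invOf eV) ?_
    have h5 := (h3.post (mu F V _).inv).pre (mu F V _).hom
    rw [S_whiskerLeft] at h5
    simpa only [Category.assoc, Iso.hom_inv_id_assoc, Iso.hom_inv_id, Category.comp_id] using h5
  have h6 : AF η s (c.inv ≫ sc θ (F.S.obj (SphF a))) := by
    refine AF.of_whiskerRight (invOf (sphIso F M)) ?_
    have h5 := (h4.post (mu F _ _).inv).pre (mu F _ _).hom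
    rw [ht] at h5
    simpa only [Category.assoc, Iso.hom_inv_id_assoc, Iso.hom_inv_id, Category.comp_id] using h5
  refine AF.of_whiskerRight (invOf (sphIso F a)) ?_
  have h7 := (h6.post (λ_ _).inv).pre c.hom
  simpa only [sc, Category.assoc, Iso.hom_inv_id_assoc, Iso.hom_inv_id, Category.comp_id] using h7

end Vale.Agent.P236Z.Tr
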