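import Vale.Agent.P236Z.Tr.Defs
import Vale.Agent.P251.H.BLoc

/-!
# P236, block TRANS: the Adams filtration is witnessed by finite objects

* `sc j W : X ⊗ W ⟶ W` for `j : X ⟶ 𝟙`, `mul j j' : X ⊗ X' ⟶ 𝟙`;
* `exists_appr` : a map from a compact object to `B ⊗ Z` comes from a finite object over `B`;
* `exists_fin` : a map of filtration `s` factors through a product of `s` maps from finite objects
  to the unit which are killed by `η`.
-/

open CategoryTheory MonoidalCategory Limits Pretriangulated Opposite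
open Vale.Agent.P251.T Vale.Agent.P251.H

universe v u

set_option linter.unusedSectionVars false

namespace Vale.Agent.P236Z.Tr

section Sc

variable {T : Type u} [Category.{v} T]

/-- `f` factors through `g` -/
def FT {A B C : T} (f : A ⟶ C) (g : B ⟶ C) : Prop := ∃ w : A ⟶ B, w ≫ g = f

variable [MonoidalCategory T]

/-- the action of `j : X ⟶ 𝟙` on `W` -/
def sc {X : T} (j : X ⟶ 𝟙_ T) (W : T) : X ⊗ W ⟶ W := j ▷ W ≫ (λ_ W).hom

/-- the product of two maps to the unit -/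
def mul {X X' : T} (j : X ⟶ 𝟙_ T) (j' : X' ⟶ 𝟙_ T) : X ⊗ X' ⟶ 𝟙_ T := sc j X' ≫ j'

@[reassoc]
lemma sc_naturality {X W W' : T} (j : X ⟶ 𝟙_ T) (b : W ⟶ W') :
    sc j W ≫ b = X ◁ b ≫ sc j W' := by
  simp only [sc, Category.assoc]
  rw [whisker_exchange_assoc, leftUnitor_naturality]

lemma sc_comp {X X' : T} (w : X' ⟶ X) (j : X ⟶ 𝟙_ T) (W : T) :
    sc (w ≫ j) W = w ▷ W ≫ sc j W := by
  simp only [sc, comp_whiskerRight, Category.assoc]

lemma sc_tensor {X : T} (j : X ⟶ 𝟙_ T) (W W' : T) :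
    sc j (W ⊗ W') = (α_ X W W').inv ≫ sc j W ▷ W' := by
  simp only [sc, comp_whiskerRight]
  rw [← associator_inv_naturality_left_assoc]
  simp

lemma sc_unit {X : T} (j : X ⟶ 𝟙_ T) : sc j (𝟙_ T) = (ρ_ X).hom ≫ j := by
  rw [sc, unitors_equal, rightUnitor_naturality]

lemma sc_id (W : T) : sc (𝟙 (𝟙_ T)) W = (λ_ W).hom := by simp [sc]

lemma sc_mul {X X' : T} (j : X ⟶ 𝟙_ T) (j' : X' ⟶ 𝟙_ T) (W : T) :
    sc (mul j j') W = (α_ X X' W).hom ≫ sc j (X' ⊗ W) ≫ sc j' W := by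
  rw [mul, sc_comp, sc_tensor]
  simp

lemma sc_comm [SymmetricCategory T] {X : T} (j : X ⟶ 𝟙_ T) (V W : T) :
    V ◁ sc j W = ((α_ V X W).inv ≫ (β_ V X).hom ▷ W ≫ (α_ X V W).hom) ≫ sc j (V ⊗ W) := by
  have h : (β_ V X).hom ≫ sc j V = V ◁ j ≫ (ρ_ V).hom := by
    rw [sc, ← BraidedCategory.braiding_naturality_right_assoc, braiding_leftUnitor]
  rw [sc_tensor]
  simp only [Category.assoc, Iso.hom_inv_id_assoc]
  rw [← comp_whiskerRight, h, comp_whiskerRight, ← associator_inv_naturality_middle_assoc, sc,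
    MonoidalCategory.whiskerLeft_comp]
  simp

lemma sc_comm' [SymmetricCategory T] {X : T} (j : X ⟶ 𝟙_ T) (V W : T) :
    FT (sc j (V ⊗ W)) (V ◁ sc j W) :=
  ⟨(α_ X V W).inv ≫ (β_ V X).inv ▷ W ≫ (α_ V X W).hom, by
    rw [sc_comm]
    simp⟩

/-- The action of a product factors through the tensor product. -/
lemma ft_mul [SymmetricCategory T] {X X' W W' P P' : T} {j : X ⟶ 𝟙_ T} {j' : X' ⟶ 𝟙_ T}
    {a : P ⟶ W} {a' : P' ⟶ W'} (h : FT (sc j W) a) (h' : FT (sc j' W') a') :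
    FT (sc (mul j j') (W ⊗ W')) (a ⊗ₘ a') := by
  obtain ⟨e, he⟩ := h
  obtain ⟨e', he'⟩ := h'
  obtain ⟨c, hc⟩ := sc_comm' j' W W'
  refine ⟨(α_ X X' (W ⊗ W')).hom ≫ X ◁ (c ≫ W ◁ e') ≫ (α_ X W P').inv ≫ e ▷ P', ?_⟩
  rw [sc_mul, ← hc, ← he', MonoidalCategory.whiskerLeft_comp W e' a', ← Category.assoc c,
    sc_naturality_assoc, sc_tensor j W P', ← he, tensorHom_def]
  simp only [Category.assoc, comp_whiskerRight]

end Sc

variable {T : Type u} [Category.{v} T] [Preadditive T] [HasZeroObject T]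
    [HasShift T ℤ] [∀ n : ℤ, (shiftFunctor T n).Additive] [Pretriangulated T]
    [MonoidalCategory T] [SymmetricCategory T] [TensorTriangulated T]

/-- the functor `B ↦ [C, B ⊗ Z]` -/
def homTen (C Z : T) : T ⥤ AddCommGrpCat.{v} :=
  tensorRight Z ⋙ preadditiveCoyoneda.obj (op C)

instance homTen_homological (C Z : T) : (homTen C Z).IsHomological where
  map_zero X Y := by
    change (preadditiveCoyoneda.obj (op C)).map ((0 : X ⟶ Y) ▷ Z) = 0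
    rw [MonoidalPreadditive.zero_whiskerRight, Functor.map_zero]
  exact Δ hΔ := by
    rw [ShortComplex.ab_exact_iff]
    intro x hx
    obtain ⟨y, hy⟩ := Triangle.coyoneda_exact₂ _ (P251.S.dist_whiskerRight Z hΔ) x hx
    exact ⟨y, hy.symm⟩

variable [IsTriangulated T] [MonoidalClosed T] [HasCoproducts.{0} T] [HasProducts.{0} T]
  [StableCat T]

lemma homTen_copGen {C : T} (hC : BL.IsCpt C) (Z : T) : BL.CopGen (homTen C Z) := by
  intro I X x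
  let e := PreservesCoproduct.iso (tensorRight Z) X
  have he : ∀ i, Sigma.ι (fun j => X j ⊗ Z) i ≫ e.inv = (Sigma.ι X i) ▷ Z := by
    intro i
    have := ι_comp_sigmaComparison (tensorRight Z) X i
    simpa [e, PreservesCoproduct.inv_hom] using this
  change C ⟶ (∐ X) ⊗ Z at x
  obtain ⟨s, hs⟩ := hC (fun j => X j ⊗ Z) (x ≫ e.hom)
  have h2 : x = ∑ i ∈ s, ((x ≫ e.hom) ≫ BL.proj _ i) ≫ ((Sigma.ι X i) ▷ Z) := by
    have h3 : x = (x ≫ e.hom) ≫ e.inv := by simp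
    conv_lhs => rw [h3, hs, Preadditive.sum_comp]
    refine Finset.sum_congr rfl fun i _ => ?_
    rw [← he]
    simp only [Category.assoc]
    rfl
  rw [h2]
  refine AddSubgroup.sum_mem _ fun i _ => ?_
  exact AddSubgroup.mem_iSup_of_mem i ⟨(x ≫ e.hom) ≫ BL.proj _ i, rfl⟩

variable [LocallySmall.{0} T]

/-- A map from a sphere to `B ⊗ Z` comes from a finite object over `B`. -/
theorem exists_appr (n : ℤ) {B Z : T} (f : (𝟙_ T)⟦n⟧ ⟶ B ⊗ Z) :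
    ∃ (X : T) (_ : BL.Fin (𝟙_ T) X) (x : X ⟶ B) (w : (𝟙_ T)⟦n⟧ ⟶ X ⊗ Z), w ≫ x ▷ Z = f := by
  have hc : IsCpt (𝟙_ T) := fun n _ X f => StableCat.compact n X f
  have hcpt : ∀ n : ℤ, BL.IsCpt ((𝟙_ T)⟦n⟧) := BL.cpt_of_cpt hc
  have h := BL.appr_all (G := BL.Fin (𝟙_ T)) (H := homTen ((𝟙_ T)⟦n⟧) Z) hc StableCat.generator
    (BL.fin_self _) (BL.fin_cpt hcpt) (homTen_copGen (hcpt n) Z) B
  exact h.surj f

/-- The filtration is witnessed by finite objects. -/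
theorem exists_fin {H : T} {η : 𝟙_ T ⟶ H} (R : ℕ → ∀ X : T, (X ⟶ 𝟙_ T) → Prop)
    (h0 : R 0 _ (𝟙 _))
    (hs : ∀ (s : ℕ) (X X' : T) (j : X ⟶ 𝟙_ T) (j' : X' ⟶ 𝟙_ T), BL.Fin (𝟙_ T) X → j ≫ η = 0 →
      R s X' j' → R (s + 1) _ (mul j j')) (n : ℤ) (s : ℕ) :
    ∀ (B : T) (f : (𝟙_ T)⟦n⟧ ⟶ B), AF η s f →
      ∃ (X : T) (j : X ⟶ 𝟙_ T), R s X j ∧ FT f (sc j B) := by
  obtain ⟨J, ι, δ, D⟩ := exists_fibre η
  induction s with
  | zero =>
    intro B f _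
    exact ⟨_, _, h0, f ≫ (λ_ B).inv, by rw [sc_id]; simp⟩
  | succ s ih =>
    rintro B _ ⟨B', g, h, rfl, hg, hh⟩
    obtain ⟨d, D'⟩ := dist_hur D B
    obtain ⟨h', hh'⟩ : ∃ h' : B' ⟶ J ⊗ B, h' ≫ sc ι B = h := D'.lift₂ h hh
    obtain ⟨X, j, hj, w, hw⟩ := ih (J ⊗ B) (g ≫ h') (hg.post h')
    obtain ⟨X₁, hX₁, x, w', hw'⟩ := exists_appr n
      (w ≫ (α_ X J B).inv ≫ (β_ X J).hom ▷ B ≫ (α_ J X B).hom)
    refine ⟨X₁ ⊗ X, mul (x ≫ ι) j, hs s _ _ _ _ hX₁ ?_ hj, w' ≫ (α_ X₁ X B).inv, ?_⟩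
    · rw [Category.assoc, D.zero₁₂, comp_zero]
    · rw [sc_mul, sc_comp, ← hh', ← reassoc_of% hw, sc_naturality, sc_comm]
      simp only [Category.assoc, Iso.inv_hom_id_assoc]
      rw [reassoc_of% hw']

end Vale.Agent.P236Z.Tr
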