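import Vale.Agent.P236Z.Tr.Defs
import Vale.Agent.P251.M.PiR
import Vale.Agent.P251.H.BLocFin

/-!
# P236, block TRANS: finite cell objects and their weight decomposition

* `Cell D X` : `X` is built from finitely many cells with dimensions in `D`;
* `exists_weight` : a finite object is an extension of cells of dimension `≥ 1` by cells of
  dimension `≤ 0`;
* `exists_div` : on cells of dimension `≤ 0` a map to the unit which is killed by the unit of
  `H F_p` is divisible by `p`.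
-/

open CategoryTheory MonoidalCategory Limits Pretriangulated ZeroObject
open Vale.Agent.P251.T Vale.Agent.P251.H Vale.Agent.P251.M Vale.Agent.P251.I

universe v u

set_option linter.unusedSectionVars false

namespace Vale.Agent.P236Z.Tr

variable {T : Type u} [Category.{v} T] [Preadditive T] [HasZeroObject T]
    [HasShift T ℤ] [∀ n : ℤ, (shiftFunctor T n).Additive] [Pretriangulated T]
    [MonoidalCategory T]

/-- Objects built from finitely many cells with dimensions in `D`. -/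
inductive Cell (D : ℤ → Prop) : T → Prop
  | zero (X : T) (h : IsZero X) : Cell D X
  | sphere (k : ℤ) (hk : D k) : Cell D ((𝟙_ T)⟦k⟧)
  | ext {X Y Z : T} {f : X ⟶ Y} {g : Y ⟶ Z} {h : Z ⟶ X⟦(1 : ℤ)⟧} :
      Dist f g h → Cell D X → Cell D Z → Cell D Y

namespace Cell

variable {D D' : ℤ → Prop}

lemma extClosed (D : ℤ → Prop) : ExtClosed (Cell (T := T) D) where
  zero := Cell.zero
  ext := Cell.ext

lemma iso {X Y : T} (e : X ≅ Y) (h : Cell D X) : Cell D Y := (extClosed D).iso e h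

lemma shift {X : T} (hX : Cell D X) (m : ℤ) (hD : ∀ k, D k → D' (k + m)) : Cell D' (X⟦m⟧) := by
  induction hX with
  | zero X h => exact zero _ ((shiftFunctor T m).map_isZero h)
  | sphere k hk =>
    exact iso ((shiftFunctorAdd' T k m (k + m) rfl).app (𝟙_ T)) (sphere (k + m) (hD k hk))
  | ext hd _ _ ih₁ ih₃ =>
    obtain ⟨_, hd'⟩ := BL.shift_dist hd m
    exact ext hd' ih₁ ih₃

lemma mono {X : T} (hX : Cell D X) (hD : ∀ k, D k → D' k) : Cell D' X := by
  induction hX with
  | zero X h => exact zero _ h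
  | sphere k hk => exact sphere k (hD k hk)
  | ext hd _ _ ih₁ ih₃ => exact ext hd ih₁ ih₃

lemma hom_zero {X Y : T} (hX : Cell D X) (hY : ∀ k, D k → ∀ g : (𝟙_ T)⟦k⟧ ⟶ Y, g = 0)
    (f : X ⟶ Y) : f = 0 := by
  induction hX with
  | zero X h => exact h.eq_of_src _ _
  | sphere k hk => exact hY k hk f
  | ext hd _ _ ih₁ ih₃ =>
    obtain ⟨b, hb⟩ := hd.desc₂ f (ih₁ _)
    rw [← hb, ih₃ b, comp_zero]

lemma conn (h0 : Conn (0 : ℤ) (𝟙_ T)) {n : ℤ} {X : T} (hX : Cell D X) (hD : ∀ k, D k → n ≤ k) :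
    Conn n X := by
  induction hX with
  | zero X h => exact Conn.zero h
  | sphere k hk => exact (h0.shift k k (by ring)).mono (hD k hk)
  | ext hd _ _ ih₁ ih₃ => exact Conn.ext _ hd ih₁ ih₃

lemma of_fin {X : T} (hX : BL.Fin (𝟙_ T) X) : Cell (fun _ => True) X := by
  obtain ⟨k, hk⟩ := (BL.fin_iff _ _).1 hX
  clear hX
  induction k generalizing X with
  | zero =>
    rcases hk with h | ⟨n, ⟨e⟩⟩
    · exact zero _ h
    · exact iso e.symm (sphere n trivial)
  | succ k ih =>
    rcases hk with h | ⟨A, B, f, g, h, hd, hA, hB⟩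
    · exact ih h
    · exact ext (Dist.rot hd) (ih hB) ((ih hA).shift 1 fun _ _ => trivial)

end Cell

/-- cells of dimension `≤ 0` -/
abbrev Lo : ObjectProperty T := Cell (fun k => k ≤ 0)

/-- cells of dimension `≥ 1` -/
abbrev Hi : ObjectProperty T := Cell (fun k => 1 ≤ k)

open ObjectProperty in
lemma swap_le (h0 : Conn (0 : ℤ) (𝟙_ T)) :
    extensionProduct (Hi (T := T)) Lo ≤ extensionProduct Lo Hi := by
  rintro E ⟨B, A, f, g, h, hd, hB, hA⟩
  have hB' : Conn 2 (B⟦(1 : ℤ)⟧) := (Cell.conn h0 hB fun _ hk => hk).shift 1 2 (by norm_num)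
  have hh : h = 0 := Cell.hom_zero hA (fun k hk g => hB' k (by omega) g) h
  obtain ⟨e, -, -⟩ := exists_iso_binaryBiproduct_of_distTriang _ hd hh
  have h1 : extensionProduct (Lo (T := T)) Hi (A ⊞ B) :=
    ⟨_, _, _, _, _, binaryBiproductTriangle_distinguished A B, hA, hB⟩
  exact (extensionProduct (Lo (T := T)) Hi).prop_of_iso
    (biprod.braiding A B ≪≫ e.symm) h1

open ObjectProperty in
lemma cell_le (D : ℤ → Prop) :
    extensionProduct (Cell (T := T) D) (Cell D) ≤ (Cell (T := T) D : ObjectProperty T) := by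
  rintro E ⟨B, A, f, g, h, hd, hB, hA⟩
  exact Cell.ext hd hB hA

open ObjectProperty in
/-- The weight decomposition of a finite object. -/
theorem exists_weight [IsTriangulated T] (h0 : Conn (0 : ℤ) (𝟙_ T)) {X : T}
    (hX : Cell (fun _ => True) X) : ∃ (A B : T) (i : A ⟶ X) (q : X ⟶ B) (d : B ⟶ A⟦(1 : ℤ)⟧),
      Dist i q d ∧ Cell (fun k => k ≤ 0) A ∧ Cell (fun k => 1 ≤ k) B := by
  change extensionProduct (Lo (T := T)) Hi X
  have hlo : ∀ Y : T, Lo Y → extensionProduct (Lo (T := T)) Hi Y := fun Y hY =>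
    ⟨_, _, _, _, _, contractible_distinguished Y, hY, Cell.zero _ (isZero_zero T)⟩
  have hhi : ∀ Y : T, Hi Y → extensionProduct (Lo (T := T)) Hi Y := fun Y hY =>
    ⟨_, _, _, _, _, contractible_distinguished₁ Y, Cell.zero _ (isZero_zero T), hY⟩
  induction hX with
  | zero X h => exact hlo X (Cell.zero X h)
  | sphere k _ =>
    rcases le_or_gt k 0 with hk | hk
    · exact hlo _ (Cell.sphere k hk)
    · exact hhi _ (Cell.sphere k hk)
  | @ext X Y Z f g h hd _ _ ih₁ ih₃ =>
    have h1 : extensionProduct (extensionProduct (Lo (T := T)) Hi) (extensionProduct Lo Hi) Y :=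
      ⟨_, _, _, _, _, hd, ih₁, ih₃⟩
    have h2 : extensionProduct (Hi (T := T)) (extensionProduct Lo Hi) ≤
        extensionProduct Lo Hi := by
      rw [← extensionProduct_assoc]
      refine (monotone_extensionProduct_left _ (swap_le h0)).trans ?_
      rw [extensionProduct_assoc]
      exact monotone_extensionProduct_right _ (cell_le _)
    rw [extensionProduct_assoc] at h1
    have h3 := monotone_extensionProduct_right (Lo (T := T)) h2 Y h1
    rw [← extensionProduct_assoc] at h3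
    exact monotone_extensionProduct_left _ (cell_le _) Y h3

variable [SymmetricCategory T] [TensorTriangulated T]

/-- Divisibility by `p` on cells of dimension `≤ 0`. -/
theorem exists_div (F : SpaceFunctor T) {p : ℕ} {H : T} {η : 𝟙_ T ⟶ H} (hH : IsHF p η) {A : T}
    (hA : Cell (fun k => k ≤ 0) A) (f : A ⟶ 𝟙_ T) (hf : f ≫ η = 0) :
    ∃ y : A ⟶ 𝟙_ T, f = (p : ℤ) • y := by
  have h0 := unit_conn F
  let z : (𝟙_ T)⟦(0 : ℤ)⟧ ≅ 𝟙_ T := (shiftFunctorZero T ℤ).app (𝟙_ T)
  obtain ⟨M, r, δ, DM⟩ := exists_cone ((p : ℤ) • 𝟙 (𝟙_ T))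
  obtain ⟨e, he⟩ := DM.desc₂ η (by
    rw [Preadditive.zsmul_comp, Category.id_comp]
    exact (hH.ord _).2 dvd_rfl)
  have hM : Conn 0 M := Conn.ext₃ _ DM h0 (h0.mono (by norm_num))
  have hM0 : ∀ g : 𝟙_ T ⟶ M, ∃ m : ℤ, g = m • r := by
    intro g
    have h1 : Conn 1 ((𝟙_ T)⟦(1 : ℤ)⟧) := h0.shift 1 1 (by norm_num)
    have h2 : g ≫ δ = 0 := by
      rw [← cancel_epi z.hom, comp_zero]
      exact h1 0 (by norm_num) _
    obtain ⟨b, hb⟩ := DM.lift₃ g h2
    obtain ⟨m, rfl⟩ := exists_int_unit F b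
    exact ⟨m, by rw [← hb, Preadditive.zsmul_comp, Category.id_comp]⟩
  obtain ⟨Fb, c, d, DF⟩ := exists_fibre e
  obtain ⟨a, _, DF'⟩ := Dist.invRot' DF
  have hF : Conn 1 Fb := by
    intro k hk g
    rcases lt_or_ge k 0 with hk0 | hk0
    · obtain ⟨x, hx⟩ := DF'.lift₂ g (hM k hk0 _)
      by_cases hk1 : k = -1
      · subst hk1
        apply (shiftFunctor T (1 : ℤ)).map_injective
        let z' : ((𝟙_ T)⟦(-1 : ℤ)⟧)⟦(1 : ℤ)⟧ ≅ 𝟙_ T := shiftNegShift (𝟙_ T) (1 : ℤ)
        obtain ⟨y, hy⟩ := DF.lift₁ (z'.inv ≫ g⟦(1 : ℤ)⟧') (by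
          rw [Category.assoc, ← Functor.map_comp, hM (-1) hk0 (g ≫ c), Functor.map_zero,
            comp_zero])
        obtain ⟨m, rfl⟩ := hH.gen y
        rw [← he, Preadditive.zsmul_comp, Category.assoc, DF.zero₂₃, comp_zero, smul_zero] at hy
        rw [Functor.map_zero, ← cancel_epi z'.inv, ← hy, comp_zero]
      · rw [← hx, eq_zero_of_shift (k + 1) (-1) k (by ring) (hH.conc (k + 1) (by omega)) x,
          zero_comp]
    · obtain rfl : k = 0 := by omega
      obtain ⟨m, hm⟩ := hM0 (z.inv ≫ g ≫ c)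
      have h3 : m • η = 0 := by
        rw [← he, ← Preadditive.zsmul_comp, ← hm, Category.assoc, Category.assoc, DF.zero₁₂,
          comp_zero, comp_zero]
      obtain ⟨m', rfl⟩ := (hH.ord m).1 h3
      have h4 : ((p : ℤ) * m') • r = 0 := by
        have h5 := DM.zero₁₂
        rw [Preadditive.zsmul_comp, Category.id_comp] at h5
        rw [mul_comm, mul_smul, h5, smul_zero]
      have h6 : g ≫ c = 0 := by
        rw [← cancel_epi z.inv, hm, h4, comp_zero]
      obtain ⟨x, hx⟩ := DF'.lift₂ g h6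
      rw [← hx, eq_zero_of_shift 1 (-1) 0 (by ring) (hH.conc 1 (by norm_num)) x, zero_comp]
  obtain ⟨x, hx⟩ := DF.lift₂ (f ≫ r) (by rw [Category.assoc, he, hf])
  have hx0 : x = 0 := Cell.hom_zero hA (fun k hk g => hF k (by omega) g) x
  obtain ⟨y, hy⟩ := DM.lift₂ f (by rw [← hx, hx0, zero_comp])
  exact ⟨y, by rw [← hy, Preadditive.comp_zsmul, Category.comp_id]⟩

end Vale.Agent.P236Z.Tr
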