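import Vale.Agent.P236Z.Tr.Cells
import Vale.Agent.P236Z.Tr.Appr
import Vale.Agent.P251.I.CofTriangle

/-!
# P236, block TRANS: factorisations do not depend on the suspension spectrum functor

* `ft_transfer` : if `S₀ a` factors through `S₀ b`, then `S a` factors through `S b`;
* `dv_transfer` : the same for divisibility by a natural number;
* `exists_cone_space` : cones of maps between suspension spectra are stably mapping cones.
-/

open CategoryTheory MonoidalCategory Limits Pretriangulated ZeroObject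
open Vale.Agent.P251.T Vale.Agent.P251.H Vale.Agent.P251.M Vale.Agent.P251.I
  Vale.Agent.P251.G Vale.Agent.P251.G.LC

universe v u v₀ u₀

set_option linter.unusedSectionVars false

namespace Vale.Agent.P236Z.Tr

section Gen

variable {T : Type u} [Category.{v} T]

lemma FT.pre {A A' B C : T} (a : A' ⟶ A) {f : A ⟶ C} {g : B ⟶ C} (h : FT f g) :
    FT (a ≫ f) g := by
  obtain ⟨w, rfl⟩ := h
  exact ⟨a ≫ w, Category.assoc _ _ _⟩

lemma FT.post {A B C C' : T} {f : A ⟶ C} {g : B ⟶ C} (h : FT f g) (c : C ⟶ C') :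
    FT (f ≫ c) (g ≫ c) := by
  obtain ⟨w, rfl⟩ := h
  exact ⟨w, (Category.assoc _ _ _).symm⟩

lemma FT.trans {A B B' C : T} {f : A ⟶ C} {g : B ⟶ C} {g' : B' ⟶ C} (h : FT f g)
    (h' : FT g g') : FT f g' := by
  obtain ⟨w, rfl⟩ := h
  exact h'.pre w

lemma FT.of_comp {A B C : T} (w : A ⟶ B) (g : B ⟶ C) : FT (w ≫ g) g := ⟨w, rfl⟩

lemma FT.refl {A C : T} (f : A ⟶ C) : FT f f := ⟨𝟙 A, Category.id_comp f⟩

lemma FT.iso {A B C : T} (e : A ≅ B) (g : B ⟶ C) : FT g (e.hom ≫ g) :=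
  ⟨e.inv, e.inv_hom_id_assoc g⟩

variable [MonoidalCategory T]

lemma FT.whiskerRight {A B C : T} {f : A ⟶ C} {g : B ⟶ C} (h : FT f g) (W : T) :
    FT (f ▷ W) (g ▷ W) := by
  obtain ⟨w, rfl⟩ := h
  exact ⟨w ▷ W, (comp_whiskerRight _ _ _).symm⟩

lemma FT.whiskerLeft (W : T) {A B C : T} {f : A ⟶ C} {g : B ⟶ C} (h : FT f g) :
    FT (W ◁ f) (W ◁ g) := by
  obtain ⟨w, rfl⟩ := h
  exact ⟨W ◁ w, (MonoidalCategory.whiskerLeft_comp _ _ _).symm⟩

lemma eq_conj_whiskerRight {W W' : T} (e : W ⊗ W' ≅ 𝟙_ T) {A B : T} (f : A ⟶ B) :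
    (f ▷ W) ▷ W' ≫ ((α_ B W W').hom ≫ B ◁ e.hom ≫ (ρ_ B).hom) =
      ((α_ A W W').hom ≫ A ◁ e.hom ≫ (ρ_ A).hom) ≫ f := by
  simp only [Category.assoc]
  rw [associator_naturality_left_assoc, ← whisker_exchange_assoc, rightUnitor_naturality]

lemma FT.of_whiskerRight {W W' : T} (e : W ⊗ W' ≅ 𝟙_ T) {A B C : T} {f : A ⟶ C} {g : B ⟶ C}
    (h : FT (f ▷ W) (g ▷ W)) : FT f g := by
  have h1 := (h.whiskerRight W').post ((α_ C W W').hom ≫ C ◁ e.hom ≫ (ρ_ C).hom)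
  rw [eq_conj_whiskerRight, eq_conj_whiskerRight] at h1
  exact ((FT.iso (α_ A W W' ≪≫ whiskerLeftIso A e ≪≫ ρ_ A) f).trans h1).trans (FT.of_comp _ _)

end Gen

section One

variable {T : Type u} [Category.{v} T] [Preadditive T] [HasZeroObject T]
    [HasShift T ℤ] [∀ n : ℤ, (shiftFunctor T n).Additive] [Pretriangulated T]
    [MonoidalCategory T] [SymmetricCategory T] [TensorTriangulated T]

lemma FT.af {H : T} {η : 𝟙_ T ⟶ H} {s : ℕ} {A B C : T} {f : A ⟶ C} {g : B ⟶ C} (h : FT f g)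
    (hg : AF η s g) : AF η s f := by
  obtain ⟨w, rfl⟩ := h
  exact hg.pre w

/-- an object which is isomorphic to a sphere is invertible -/
noncomputable def invOf {W : T} {k : ℤ} (e : W ≅ (𝟙_ T)⟦k⟧) : W ⊗ (𝟙_ T)⟦-k⟧ ≅ 𝟙_ T :=
  whiskerRightIso e _ ≪≫ P251.S.tensorSph (-k) _ ≪≫ shiftShiftNeg (𝟙_ T) k

/-- the tensor product with an object which is isomorphic to a sphere -/
noncomputable def tenOf (A : T) {W : T} {k : ℤ} (e : W ≅ (𝟙_ T)⟦k⟧) : A ⊗ W ≅ A⟦k⟧ :=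
  whiskerLeftIso A e ≪≫ P251.S.tensorSph k A

variable (F : SpaceFunctor T)

/-- the tensorator -/
noncomputable abbrev mu (X Y : FCat) : F.S.obj X ⊗ F.S.obj Y ≅ F.S.obj (X ⊗ Y) :=
  Functor.Monoidal.μIso F.S X Y

/-- `S (U × ℝᵐ) ≅ (S U)⟦m⟧` -/
noncomputable def sphShift (U : FCat) (m : ℕ) :
    F.S.obj (U ⊗ SphF m) ≅ (F.S.obj U)⟦(m : ℤ)⟧ :=
  (mu F U (SphF m)).symm ≪≫ tenOf _ (sphIso F m)

lemma ft_S_whiskerRight {X Y Z : FCat} {a : X ⟶ Z} {b : Y ⟶ Z} {W : FCat} {k : ℤ}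
    (e : F.S.obj W ≅ (𝟙_ T)⟦k⟧) (h : FT (F.S.map (a ▷ W)) (F.S.map (b ▷ W))) :
    FT (F.S.map a) (F.S.map b) := by
  refine FT.of_whiskerRight (invOf e) ?_
  have h1 := h.post (mu F Z W).inv
  rw [S_whiskerRight, S_whiskerRight] at h1
  simp only [Category.assoc, Iso.hom_inv_id, Category.comp_id] at h1
  exact ((FT.iso (mu F X W).symm _).trans h1).trans (FT.of_comp _ _)

lemma S_whiskerLeft_mfold (Z : FCat) (p : ℕ) :
    F.S.map (Z ◁ (FCat.hom (mfold p) : RRF ⟶ RRF)) = (p : ℤ) • 𝟙 (F.S.obj (Z ⊗ RRF)) := by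
  have h : F.S.obj Z ◁ ((p : ℤ) • 𝟙 (F.S.obj RRF)) = (p : ℤ) • 𝟙 _ := by
    have h1 := (tensorLeft (F.S.obj Z)).map_zsmul (r := (p : ℤ)) (f := 𝟙 (F.S.obj RRF))
    rw [CategoryTheory.Functor.map_id] at h1
    exact h1
  rw [S_whiskerLeft, S_mfold, h, Preadditive.zsmul_comp, Category.id_comp,
    Preadditive.comp_zsmul, Iso.inv_hom_id]

lemma zsmul_whiskerRight {A B : T} (m : ℤ) (f : A ⟶ B) (W : T) : (m • f) ▷ W = m • f ▷ W :=
  (tensorRight W).map_zsmul (r := m) (f := f)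

lemma ft_zsmul_iff {A B : T} (m : ℤ) (f : A ⟶ B) :
    FT f (m • 𝟙 B) ↔ ∃ y : A ⟶ B, f = m • y := by
  refine exists_congr fun y => ?_
  rw [Preadditive.comp_zsmul, Category.comp_id, eq_comm]

/-- Cones of maps between suspension spectra are stably mapping cones. -/
theorem exists_cone_space {U₁ U₃ : FCat} {Z : T} {g : F.S.obj U₃ ⟶ F.S.obj U₁}
    {q : F.S.obj U₁ ⟶ Z} {d : Z ⟶ (F.S.obj U₃)⟦(1 : ℤ)⟧} (D : Dist g q d) :
    ∃ (m : ℕ) (h : U₃ ⊗ SphF m ⟶ U₁ ⊗ SphF m)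
      (e : Z ⊗ F.S.obj (SphF m) ≅ F.S.obj (coneF h)),
      q ▷ F.S.obj (SphF m) ≫ e.hom = (mu F U₁ (SphF m)).hom ≫ F.S.map (coneInrF h) := by
  obtain ⟨m, h, hh⟩ := F.full g
  obtain ⟨d', D'⟩ := dist_tensR D (F.S.obj (SphF m))
  have D₁ := dist_iso D' (mu F U₃ (SphF m)).symm (mu F U₁ (SphF m)).symm (Iso.refl _)
    (f' := F.S.map h) (g' := (mu F U₁ (SphF m)).inv ≫ q ▷ F.S.obj (SphF m))
    (by rw [hh]; simp) (by simp)
  have D₂ : Dist (F.S.map h) (F.S.map (coneInrF h)) (F.coneδ h) := F.cone_distinguished h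
  obtain ⟨c, h₂, h₃⟩ := D₁.map₃ D₂ (𝟙 _) (𝟙 _) (by simp)
  rw [Category.id_comp] at h₂
  rw [CategoryTheory.Functor.map_id, Category.comp_id] at h₃
  have := D₁.iso₃ D₂ c h₂ h₃
  refine ⟨m, h, asIso c, ?_⟩
  rw [asIso_hom, ← h₂]
  simp

end One

variable {T₀ : Type u₀} [Category.{v₀} T₀] [Preadditive T₀] [HasZeroObject T₀]
    [HasShift T₀ ℤ] [∀ n : ℤ, (shiftFunctor T₀ n).Additive] [Pretriangulated T₀]
    [MonoidalCategory T₀] [SymmetricCategory T₀] [TensorTriangulated T₀]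
    {T : Type u} [Category.{v} T] [Preadditive T] [HasZeroObject T]
    [HasShift T ℤ] [∀ n : ℤ, (shiftFunctor T n).Additive] [Pretriangulated T]
    [MonoidalCategory T] [SymmetricCategory T] [TensorTriangulated T]
    (F₀ : SpaceFunctor T₀) (F : SpaceFunctor T)

/-- Factorisations do not depend on the suspension spectrum functor. -/
theorem ft_transfer {X Y Z : FCat} {a : X ⟶ Z} {b : Y ⟶ Z}
    (h : FT (F₀.S.map a) (F₀.S.map b)) : FT (F.S.map a) (F.S.map b) := by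
  obtain ⟨w, hw⟩ := h
  obtain ⟨n, ω, hω⟩ := F₀.full w
  have h1 : F₀.S.map (ω ≫ b ▷ SphF n) = F₀.S.map (a ▷ SphF n) := by
    rw [Functor.map_comp, hω, S_whiskerRight, S_whiskerRight, ← hw]
    simp
  obtain ⟨m, hm⟩ := F₀.faithful _ _ h1
  have h2 : F.S.map ((ω ≫ b ▷ SphF n) ▷ SphF m) = F.S.map ((a ▷ SphF n) ▷ SphF m) :=
    F.map_eq _ _ hm
  refine ft_S_whiskerRight F (sphIso F n) (ft_S_whiskerRight F (sphIso F m) ?_)
  rw [← h2, comp_whiskerRight, Functor.map_comp]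
  exact FT.of_comp _ _

/-- Divisibility does not depend on the suspension spectrum functor. -/
theorem dv_transfer (p : ℕ) {X Z : FCat} {a : X ⟶ Z}
    (h : ∃ y, F₀.S.map a = (p : ℤ) • y) : ∃ y, F.S.map a = (p : ℤ) • y := by
  obtain ⟨y₀, hy₀⟩ := h
  have h1 : FT (F₀.S.map (a ▷ RRF)) (F₀.S.map (Z ◁ (FCat.hom (mfold p) : RRF ⟶ RRF))) := by
    rw [S_whiskerLeft_mfold, ft_zsmul_iff, S_whiskerRight, hy₀, zsmul_whiskerRight,
      Preadditive.zsmul_comp, Preadditive.comp_zsmul]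
    exact ⟨_, rfl⟩
  have h2 := ft_transfer F₀ F h1
  rw [S_whiskerLeft_mfold, ft_zsmul_iff, S_whiskerRight] at h2
  obtain ⟨y, hy⟩ := h2
  rw [← ft_zsmul_iff]
  refine FT.of_whiskerRight (invOf F.line) ?_
  rw [zsmul_whiskerRight, id_whiskerRight, ft_zsmul_iff]
  refine ⟨(mu F X RRF).hom ≫ y ≫ (mu F Z RRF).inv, ?_⟩
  rw [← Preadditive.comp_zsmul, ← Preadditive.zsmul_comp, ← hy]
  simp only [Category.assoc, Iso.hom_inv_id_assoc, Iso.hom_inv_id, Category.comp_id]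

end Vale.Agent.P236Z.Tr
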