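import Vale.Agent.P236Z.Tr.Fac

/-!
# P236, block TRANS: realisation of finite objects and of null maps by spaces

* `Rl F₀ F D X k` : `X⟦k⟧` is a suspension spectrum `S₀ U` and `S U` has cells in `D + k`;
* `Rz F₀ F η s X j` : the action of `j : X ⟶ 𝟙` on a sphere factors through `S₀ u` for a map of
  spaces `u` such that `S u` has filtration `s`;
* `rz_one`, `rz_mul`.
-/

open CategoryTheory MonoidalCategory Limits Pretriangulated ZeroObject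
open Vale.Agent.P251.T Vale.Agent.P251.H Vale.Agent.P251.M Vale.Agent.P251.I
  Vale.Agent.P251.G Vale.Agent.P251.G.LC

universe v u v₀ u₀

set_option linter.unusedSectionVars false

namespace Vale.Agent.P236Z.Tr

variable {T₀ : Type u₀} [Category.{v₀} T₀] [Preadditive T₀] [HasZeroObject T₀]
    [HasShift T₀ ℤ] [∀ n : ℤ, (shiftFunctor T₀ n).Additive] [Pretriangulated T₀]
    [MonoidalCategory T₀] [SymmetricCategory T₀] [TensorTriangulated T₀]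
    {T : Type u} [Category.{v} T] [Preadditive T] [HasZeroObject T]
    [HasShift T ℤ] [∀ n : ℤ, (shiftFunctor T n).Additive] [Pretriangulated T]
    [MonoidalCategory T] [SymmetricCategory T] [TensorTriangulated T]
    (F₀ : SpaceFunctor T₀) (F : SpaceFunctor T)

/-- `X⟦k⟧` is a suspension spectrum, with cells in `D + k` on the other side. -/
def Rl (D : ℤ → Prop) (X : T₀) (k : ℕ) : Prop :=
  ∃ U : FCat, Nonempty (X⟦(k : ℤ)⟧ ≅ F₀.S.obj U) ∧ Cell (fun r => D (r - k)) (F.S.obj U)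

variable {F₀ F}

lemma cell_sph {D D' : ℤ → Prop} {U : FCat} (h : Cell D (F.S.obj U)) (m : ℕ)
    (hD : ∀ r, D r → D' (r + m)) : Cell D' (F.S.obj (U ⊗ SphF m)) :=
  (h.shift m hD).iso (sphShift F U m).symm

lemma Rl.up {D : ℤ → Prop} {X : T₀} {k l : ℕ} (h : Rl F₀ F D X k) (hl : k ≤ l) :
    Rl F₀ F D X l := by
  obtain ⟨m, rfl⟩ := Nat.exists_eq_add_of_le hl
  obtain ⟨U, ⟨e⟩, hU⟩ := h
  refine ⟨U ⊗ SphF m, ⟨(shiftFunctorAdd' T₀ (k : ℤ) (m : ℤ) _ (by push_cast; ring)).app X ≪≫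
    (shiftFunctor T₀ (m : ℤ)).mapIso e ≪≫ (sphShift F₀ U m).symm⟩, cell_sph hU m fun r hr => ?_⟩
  have : r + (m : ℤ) - ((k + m : ℕ) : ℤ) = r - k := by push_cast; ring
  rwa [this]

variable (F₀ F)

/-- Finite cell objects are stably suspension spectra. -/
theorem exists_rl {D : ℤ → Prop} {X : T₀} (hX : Cell D X) : ∃ k, Rl F₀ F D X k := by
  induction hX with
  | zero X h =>
    let E : FCat := ⟨LC.of Empty, FC.empty⟩
    have hE : IsEmpty E.obj := inferInstanceAs (IsEmpty Empty)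
    exact ⟨0, E, ⟨((shiftFunctor T₀ _).map_isZero h).iso (F₀.isZero hE)⟩,
      Cell.zero _ (F.isZero hE)⟩
  | sphere k hk =>
    obtain ⟨b, hb⟩ : ∃ b : ℕ, k + (k.natAbs : ℤ) = b := ⟨(k + (k.natAbs : ℤ)).toNat, by omega⟩
    refine ⟨k.natAbs, SphF b, ⟨((shiftFunctorAdd' T₀ k _ _ hb).app _).symm ≪≫
      (sphIso F₀ b).symm⟩, (Cell.sphere (b : ℤ) ?_).iso (sphIso F b).symm⟩
    have : (b : ℤ) - (k.natAbs : ℤ) = k := by omega
    rwa [this]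
  | @ext X Y Z f g h hd _ _ ih₁ ih₃ =>
    obtain ⟨k₁, h₁⟩ := ih₁
    obtain ⟨k₃, h₃⟩ := ih₃
    obtain ⟨U₁, ⟨e₁⟩, hU₁⟩ := h₁.up (l := k₁ + k₃ + 1) (by omega)
    obtain ⟨U₃, ⟨e₃⟩, hU₃⟩ := h₃.up (l := k₁ + k₃) (by omega)
    generalize k₁ + k₃ = k at e₁ hU₁ e₃ hU₃
    obtain ⟨_, hd'⟩ := BL.shift_dist hd.rot.rot (k : ℤ)
    let c : ∀ A : T₀, A⟦((k + 1 : ℕ) : ℤ)⟧ ≅ (A⟦(1 : ℤ)⟧)⟦(k : ℤ)⟧ := fun A =>
      (shiftFunctorAdd' T₀ (1 : ℤ) (k : ℤ) _ (by push_cast; ring)).app A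
    let a : F₀.S.obj U₁ ≅ (X⟦(1 : ℤ)⟧)⟦(k : ℤ)⟧ := e₁.symm ≪≫ c X
    have D₁ := dist_iso hd' e₃.symm a (Iso.refl _) (f' := e₃.inv ≫ h⟦(k : ℤ)⟧' ≫ a.inv)
      (g' := a.hom ≫ (-f⟦(1 : ℤ)⟧')⟦(k : ℤ)⟧') (by simp) (by simp)
    obtain ⟨m, t, e, -⟩ := exists_cone_space F₀ D₁
    refine ⟨k + 1 + m, coneF t, ⟨(shiftFunctorAdd' T₀ ((k + 1 : ℕ) : ℤ) (m : ℤ) _
      (by push_cast; ring)).app Y ≪≫ (shiftFunctor T₀ (m : ℤ)).mapIso (c Y) ≪≫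
        (tenOf _ (sphIso F₀ m)).symm ≪≫ e⟩, ?_⟩
    refine Cell.ext (Dist.rot (F.cone_distinguished t)) (cell_sph hU₁ m fun r hr => ?_)
      ((cell_sph (D' := fun r => D (r - k - m)) hU₃ m fun r hr => ?_).shift 1 fun r hr => ?_)
    · have : r + (m : ℤ) - ((k + 1 + m : ℕ) : ℤ) = r - ((k + 1 : ℕ) : ℤ) := by push_cast; ring
      rwa [this]
    · have : r + (m : ℤ) - k - m = r - k := by ring
      rwa [this]
    · have : r + 1 - ((k + 1 + m : ℕ) : ℤ) = r - k - m := by push_cast; ring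
      rwa [this]

/-- The action of `j` on a sphere factors through a map of spaces of filtration `s`. -/
def Rz {H : T} (η : 𝟙_ T ⟶ H) (s : ℕ) (X : T₀) (j : X ⟶ 𝟙_ T₀) : Prop :=
  ∃ (U V : FCat) (u : U ⟶ V) (K : ℤ), Nonempty (F.S.obj V ≅ (𝟙_ T)⟦K⟧) ∧
    AF η s (F.S.map u) ∧ FT (sc j (F₀.S.obj V)) (F₀.S.map u)

variable {H : T} {η : 𝟙_ T ⟶ H}

lemma rz_zero : Rz F₀ F η 0 _ (𝟙 _) :=
  ⟨SphF 0, SphF 0, 𝟙 _, _, ⟨sphIso F 0⟩, trivial, sc (𝟙 _) _, by simp⟩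

lemma rz_mul {s t : ℕ} {X X' : T₀} {j : X ⟶ 𝟙_ T₀} {j' : X' ⟶ 𝟙_ T₀} (h : Rz F₀ F η s X j)
    (h' : Rz F₀ F η t X' j') : Rz F₀ F η (s + t) _ (mul j j') := by
  obtain ⟨U, V, u, K, ⟨e⟩, hu, hj⟩ := h
  obtain ⟨U', V', u', K', ⟨e'⟩, hu', hj'⟩ := h'
  refine ⟨U ⊗ U', V ⊗ V', u ⊗ₘ u', K + K', ⟨(mu F V V').symm ≪≫ tenOf _ e' ≪≫
    (shiftFunctor T K').mapIso e ≪≫ ((shiftFunctorAdd T K K').app _).symm⟩, ?_, ?_⟩
  · rw [Functor.Monoidal.map_tensor]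
    exact ((hu.tensor hu').post _).pre _
  · have h1 := (ft_mul hj hj').post (mu F₀ V V').hom
    rw [sc_naturality] at h1
    refine ((FT.iso (whiskerLeftIso (X ⊗ X') (mu F₀ V V')) _).trans h1).trans ?_
    rw [Functor.Monoidal.map_tensor]
    exact FT.iso (mu F₀ U U').symm _

lemma ft_sc_tensor {X P : T₀} {j : X ⟶ 𝟙_ T₀} {V : FCat} {b : P ⟶ F₀.S.obj V}
    (h : FT (sc j (F₀.S.obj V)) b) (V' : FCat) :
    FT (sc j (F₀.S.obj (V ⊗ V'))) (b ▷ F₀.S.obj V' ≫ (mu F₀ V V').hom) := by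
  have h1 := ((h.whiskerRight (F₀.S.obj V')).pre (α_ _ _ _).inv).post (mu F₀ V V').hom
  rw [← sc_tensor, sc_naturality] at h1
  exact (FT.iso (whiskerLeftIso X (mu F₀ V V')) _).trans h1

lemma sc_zsmul {X : T₀} (m : ℤ) (y : X ⟶ 𝟙_ T₀) (W : T₀) : sc (m • y) W = m • sc y W := by
  rw [sc, sc, zsmul_whiskerRight, Preadditive.zsmul_comp]

/-- A map from a finite object to the unit which is killed by `η₀` is realised. -/
theorem rz_one [IsTriangulated T₀] {p : ℕ} {H₀ : T₀} {η₀ : 𝟙_ T₀ ⟶ H₀} (hH₀ : IsHF p η₀)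
    (hH : IsHF p η) {X : T₀} (hX : BL.Fin (𝟙_ T₀) X) (j : X ⟶ 𝟙_ T₀) (hj : j ≫ η₀ = 0) :
    Rz F₀ F η 1 X j := by
  obtain ⟨A, B, i, q, d, D, hA, hB⟩ := exists_weight (unit_conn F₀) (Cell.of_fin hX)
  obtain ⟨y, hy⟩ := exists_div F₀ hH₀ hA (i ≫ j) (by rw [Category.assoc, hj, comp_zero])
  obtain ⟨a, _, D'⟩ := Dist.invRot' D
  have hB' : Cell (fun r => 0 ≤ r) (B⟦(-1 : ℤ)⟧) := hB.shift (-1) fun r hr => by omega
  obtain ⟨k₁, h₁⟩ := exists_rl F₀ F hA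
  obtain ⟨k₃, h₃⟩ := exists_rl F₀ F hB'
  obtain ⟨U₁, ⟨e₁⟩, -⟩ := h₁.up (l := k₁ + k₃) (by omega)
  obtain ⟨U₃, ⟨e₃⟩, hU₃⟩ := h₃.up (l := k₁ + k₃) (by omega)
  generalize k₁ + k₃ = k at e₁ e₃ hU₃
  obtain ⟨_, D₁⟩ := dist_tensR D' (F₀.S.obj (SphF k))
  let c₁ : F₀.S.obj U₁ ≅ A ⊗ F₀.S.obj (SphF k) := (tenOf A (sphIso F₀ k) ≪≫ e₁).symm
  let c₃ : F₀.S.obj U₃ ≅ (B⟦(-1 : ℤ)⟧) ⊗ F₀.S.obj (SphF k) := (tenOf _ (sphIso F₀ k) ≪≫ e₃).symm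
  have D₂ := dist_iso D₁ c₃ c₁ (Iso.refl _)
    (f' := c₃.hom ≫ a ▷ F₀.S.obj (SphF k) ≫ c₁.inv) (g' := c₁.hom ≫ i ▷ F₀.S.obj (SphF k))
    (by simp) (by simp)
  obtain ⟨m, t, e, he⟩ := exists_cone_space F₀ D₂
  let j' : F₀.S.obj (coneF t) ⟶ F₀.S.obj (SphF k ⊗ SphF m) :=
    e.inv ≫ sc j (F₀.S.obj (SphF k)) ▷ F₀.S.obj (SphF m) ≫ (mu F₀ (SphF k) (SphF m)).hom
  obtain ⟨m', u, hu⟩ := F₀.full j'
  let eV : F.S.obj ((SphF k ⊗ SphF m) ⊗ SphF m') ≅ (𝟙_ T)⟦(k : ℤ) + m + m'⟧ :=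
    sphShift F _ m' ≪≫ (shiftFunctor T (m' : ℤ)).mapIso (sphShift F _ m ≪≫
      (shiftFunctor T (m : ℤ)).mapIso (sphIso F k) ≪≫ ((shiftFunctorAdd T _ _).app _).symm) ≪≫
      ((shiftFunctorAdd T _ _).app _).symm
  refine ⟨_, _, u, _, ⟨eV⟩, AF.of_null ?_, ?_⟩
  · have h1 : F₀.S.map (coneInrF t) ≫ j' = (p : ℤ) • ((mu F₀ U₁ (SphF m)).inv ≫
        (c₁.hom ≫ sc y _) ▷ F₀.S.obj (SphF m) ≫ (mu F₀ (SphF k) (SphF m)).hom) := by
      rw [← Preadditive.comp_zsmul, ← Preadditive.zsmul_comp, ← zsmul_whiskerRight,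
        ← Preadditive.comp_zsmul, ← sc_zsmul, ← hy, sc_comp,
        ← cancel_epi (mu F₀ U₁ (SphF m)).hom, ← reassoc_of% he]
      simp only [j', Iso.hom_inv_id_assoc, comp_whiskerRight, Category.assoc]
    have h2 : ∃ z, F₀.S.map (coneInrF t ▷ SphF m' ≫ u) = (p : ℤ) • z := by
      rw [Functor.map_comp, hu, S_whiskerRight]
      simp only [Category.assoc, Iso.hom_inv_id_assoc]
      rw [← comp_whiskerRight_assoc, h1, zsmul_whiskerRight, Preadditive.zsmul_comp,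
        Preadditive.comp_zsmul]
      exact ⟨_, rfl⟩
    obtain ⟨z, hz⟩ := dv_transfer F₀ F p h2
    have h3 : (p : ℤ) • hur η (F.S.obj ((SphF k ⊗ SphF m) ⊗ SphF m')) = 0 := by
      rw [hur, ← Preadditive.comp_zsmul, ← zsmul_whiskerRight, (hH.ord _).2 dvd_rfl,
        MonoidalPreadditive.zero_whiskerRight, comp_zero]
    obtain ⟨_, D₃⟩ := dist_tensR (Dist.rot (F.cone_distinguished t)) (F.S.obj (SphF m'))
    obtain ⟨b, hb⟩ := D₃.desc₂ ((mu F (coneF t) (SphF m')).hom ≫ F.S.map u ≫ hur η _) (by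
      rw [← cancel_epi (mu F _ (SphF m')).inv, comp_zero, ← Category.assoc (_ ▷ _),
        ← Category.assoc, ← S_whiskerRight, ← Category.assoc, ← Functor.map_comp, hz,
        Preadditive.zsmul_comp, ← Preadditive.comp_zsmul, h3, comp_zero])
    have hC : Cell (fun r => (k : ℤ) + m + m' + 1 ≤ r)
        (((F.S.obj (U₃ ⊗ SphF m))⟦(1 : ℤ)⟧) ⊗ F.S.obj (SphF m')) :=
      (((cell_sph (D' := fun r => (k : ℤ) + m ≤ r) hU₃ m fun r hr => by omega).shift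
        (D' := fun r => (k : ℤ) + m + 1 ≤ r) 1 fun r hr => by omega).shift (m' : ℤ)
          fun r hr => by omega).iso (tenOf _ (sphIso F m')).symm
    have hb0 : b = 0 := by
      refine hC.hom_zero (fun r hr g => ?_) b
      rw [← cancel_mono (tenOf H eV).hom, zero_comp]
      exact eq_zero_of_shift (r - (k + m + m')) _ r (by ring) (hH.conc _ (by omega)) _
    rw [hb0, comp_zero] at hb
    rw [Null, ← cancel_epi (mu F (coneF t) (SphF m')).hom, ← hb, comp_zero]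
  · have h1 : FT (sc j (F₀.S.obj (SphF k ⊗ SphF m))) j' :=
      (ft_sc_tensor F₀ (FT.refl _) (SphF m)).trans (FT.iso e.symm _)
    refine (ft_sc_tensor F₀ h1 (SphF m')).trans ?_
    rw [hu]
    exact FT.iso (mu F₀ _ _).symm _

end Vale.Agent.P236Z.Tr
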